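import Vale.Agent.P038.H929.Drop

/-!
# The square inequality
-/

namespace Vale.Agent.P038.H929

open Finset

variable {V : Type*} [Fintype V] [DecidableEq V]

/-- column `y` of the gap of `(U, W)` -/
def Gc (U W : V → Finset V) (y : V) : Finset V :=
  univ.filter (fun x => y ∉ U x ∧ x ∉ W y)

/-- the new neighbours of column `y` of the gap -/
def Bc (N U W : V → Finset V) (y : V) : Finset V :=
  (Gc U W y).biUnion N \ (W y).biUnion N

/-- `x` such that `a` is a new neighbour of row `x` of the gap -/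
def Sc (N U W : V → Finset V) (a : V) : Finset V :=
  univ.filter (fun x => a ∈ Bc N W U x)

/-- the corners -/
def Xc (N U W : V → Finset V) (a : V) : Finset V :=
  univ.filter (fun b => (∃ x, b ∈ N x ∧ a ∉ (U x).biUnion N) ∧
    ∃ y, a ∈ N y ∧ b ∉ (W y).biUnion N)

/-- the feasible pairs -/
structure Feas (N U W : V → Finset V) : Prop where
  left : ∀ x, N x ⊆ U x
  right : ∀ y, N y ⊆ W y
  orth : ∀ x y, y ∈ U x → x ∈ W y → x = y

theorem Feas.symm {N U W : V → Finset V} (h : Feas N U W) : Feas N W U :=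
  ⟨h.right, h.left, fun x y h1 h2 => (h.orth y x h2 h1).symm⟩

/-- Hall's condition for the columns of the gap -/
def ColHall (N U W : V → Finset V) : Prop :=
  ∀ y T, T ⊆ Gc U W y → T.card ≤ (T.biUnion N \ (W y).biUnion N).card

theorem mem_Gc {U W : V → Finset V} {x y : V} : x ∈ Gc U W y ↔ y ∉ U x ∧ x ∉ W y := by
  simp [Gc]

theorem mem_Sc {N U W : V → Finset V} {x a : V} :
    x ∈ Sc N U W a ↔ (∃ y, a ∈ N y ∧ y ∉ U x ∧ x ∉ W y) ∧ a ∉ (U x).biUnion N := by
  simp only [Sc, Bc, mem_filter, mem_univ, true_and, mem_sdiff, mem_biUnion, mem_Gc]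
  constructor
  · rintro ⟨⟨y, ⟨h1, h2⟩, h3⟩, h4⟩
    exact ⟨⟨y, h3, h2, h1⟩, h4⟩
  · rintro ⟨⟨y, h3, h2, h1⟩, h4⟩
    exact ⟨⟨y, ⟨h1, h2⟩, h3⟩, h4⟩

theorem Sc_notMem_U {N U W : V → Finset V} {x a y : V} (hx : x ∈ Sc N U W a)
    (hy : a ∈ N y) : y ∉ U x := by
  rw [mem_Sc] at hx
  intro h
  exact hx.2 (mem_biUnion.2 ⟨y, h, hy⟩)

theorem mem_Xc_of {N U W : V → Finset V} {x a y b : V} (hx : x ∈ Sc N U W a)
    (hb : b ∈ N x) (hy : a ∈ N y) (hbW : b ∉ (W y).biUnion N) : b ∈ Xc N U W a := by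
  simp only [Xc, mem_filter, mem_univ, true_and]
  exact ⟨⟨x, hb, (mem_Sc.1 hx).2⟩, y, hy, hbW⟩

theorem biUnion_sdiff_subset_Xc {N U W : V → Finset V} {a y : V} {E : Finset V}
    (hE : E ⊆ Sc N U W a) (hy : a ∈ N y) :
    E.biUnion N \ (W y).biUnion N ⊆ Xc N U W a := by
  intro b hb
  rw [mem_sdiff, mem_biUnion] at hb
  obtain ⟨⟨x, hx, hbx⟩, h2⟩ := hb
  exact mem_Xc_of (hE hx) hbx hy h2

/-- Hall's condition for the second system -/
theorem hallX {N U W : V → Finset V} (hC : ColHall N U W) (a : V) (D : Finset V)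
    (hD : D ⊆ Sc N U W a) : D.card ≤ ((D.biUnion N) ∩ Xc N U W a).card := by
  induction D using Finset.strongInduction with
  | H D ih =>
    rcases D.eq_empty_or_nonempty with rfl | ⟨x, hx⟩
    · simp
    · obtain ⟨⟨y, hy, hyU, hxW⟩, -⟩ := mem_Sc.1 (hD hx)
      have hss : D ∩ W y ⊂ D := by
        refine ⟨inter_subset_left, fun h => hxW (mem_inter.1 (h hx)).2⟩
      have h1 := ih (D ∩ W y) hss (fun z hz => hD (mem_inter.1 hz).1)
      have hE : D \ W y ⊆ Gc U W y := by
        intro z hz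
        rw [mem_sdiff] at hz
        exact mem_Gc.2 ⟨Sc_notMem_U (hD hz.1) hy, hz.2⟩
      have h2 := hC y (D \ W y) hE
      have h3 : (D ∩ W y).card + (D \ W y).card = D.card := by
        rw [← card_union_of_disjoint]
        · congr 1
          ext z
          simp only [mem_union, mem_inter, mem_sdiff]
          tauto
        · rw [disjoint_left]
          intro z hz hz2
          exact (mem_sdiff.1 hz2).2 (mem_inter.1 hz).2
      have h4 : Disjoint (((D ∩ W y).biUnion N) ∩ Xc N U W a)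
          ((D \ W y).biUnion N \ (W y).biUnion N) := by
        rw [disjoint_left]
        intro z hz hz2
        rw [mem_inter, mem_biUnion] at hz
        obtain ⟨⟨v, hv, hzv⟩, -⟩ := hz
        exact (mem_sdiff.1 hz2).2 (mem_biUnion.2 ⟨v, (mem_inter.1 hv).2, hzv⟩)
      have h5 : (((D ∩ W y).biUnion N) ∩ Xc N U W a) ∪
          ((D \ W y).biUnion N \ (W y).biUnion N) ⊆ (D.biUnion N) ∩ Xc N U W a := by
        intro z hz
        rw [mem_union] at hz
        rcases hz with hz | hz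
        · rw [mem_inter, mem_biUnion] at hz
          obtain ⟨⟨v, hv, hzv⟩, h6⟩ := hz
          exact mem_inter.2 ⟨mem_biUnion.2 ⟨v, (mem_inter.1 hv).1, hzv⟩, h6⟩
        · refine mem_inter.2 ⟨?_, biUnion_sdiff_subset_Xc
            (fun v hv => hD (mem_sdiff.1 hv).1) hy hz⟩
          rw [mem_sdiff, mem_biUnion] at hz
          obtain ⟨⟨v, hv, hzv⟩, -⟩ := hz
          exact mem_biUnion.2 ⟨v, (mem_sdiff.1 hv).1, hzv⟩
      have h6 := card_le_card h5
      rw [card_union_of_disjoint h4] at h6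
      omega

/-- monotonicity: a free target of column `y` is free for the second system -/
theorem free_mono {N U W : V → Finset V} {a y b : V} (K : Finset V) (hy : a ∈ N y)
    (hb : b ∈ Bc N U W y) (hf : Free N (Gc U W y) (Bc N U W y) K b) :
    Free N (Sc N U W a) (Xc N U W a) K b := by
  obtain ⟨Dy, hDy, hmax, hbD⟩ := hf
  obtain ⟨Da, hDa, hmaxa⟩ := mx_spec N (Sc N U W a) (Xc N U W a) K
  set E := (Da \ W y) \ Dy with hEdef
  have hEG : E ⊆ Gc U W y := by
    intro z hz
    rw [hEdef, mem_sdiff, mem_sdiff] at hz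
    exact mem_Gc.2 ⟨Sc_notMem_U (hDa hz.1.1) hy, hz.1.2⟩
  have hEDa : E ⊆ Da := fun z hz => by
    rw [hEdef, mem_sdiff, mem_sdiff] at hz
    exact hz.1.1
  have hEdis : Disjoint Dy E := by
    rw [disjoint_left]
    intro z hz hz2
    rw [hEdef, mem_sdiff] at hz2
    exact hz2.2 hz
  have hsub : Da \ E ⊆ W y ∪ Dy := by
    intro z hz
    rw [mem_sdiff, hEdef, mem_sdiff, mem_sdiff] at hz
    rw [mem_union]
    tauto
  have hbE : b ∉ (Da \ E).biUnion N := by
    intro h
    rw [mem_biUnion] at h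
    obtain ⟨z, hz, hbz⟩ := h
    rcases mem_union.1 (hsub hz) with h | h
    · exact (mem_sdiff.1 hb).2 (mem_biUnion.2 ⟨z, h, hbz⟩)
    · exact hbD (mem_biUnion.2 ⟨z, h, hbz⟩)
  refine ⟨Da \ E, fun z hz => hDa (mem_sdiff.1 hz).1, ?_, hbE⟩
  apply le_antisymm (le_mx N _ _ K (fun z hz => hDa (mem_sdiff.1 hz).1))
  rw [← hmaxa]
  -- the common set
  set M := ((E.biUnion N \ (W y).biUnion N) \ Dy.biUnion N) ∩ K with hM
  have h1 : val N (Bc N U W y) K (Dy ∪ E) ≤ val N (Bc N U W y) K Dy := by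
    rw [hmax]
    exact le_mx N _ _ K (union_subset hDy hEG)
  have hc1 : (Dy ∪ E).card = Dy.card + E.card := card_union_of_disjoint hEdis
  have hc2 : ((Dy ∪ E).biUnion N ∩ Bc N U W y ∩ K).card ≤
      (Dy.biUnion N ∩ Bc N U W y ∩ K).card + M.card := by
    rw [← card_union_of_disjoint]
    · apply card_le_card
      intro z hz
      rw [mem_inter, mem_inter, mem_biUnion] at hz
      obtain ⟨⟨⟨v, hv, hzv⟩, h3⟩, h4⟩ := hz
      rw [mem_union]
      by_cases hzD : z ∈ Dy.biUnion N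
      · exact Or.inl (mem_inter.2 ⟨mem_inter.2 ⟨hzD, h3⟩, h4⟩)
      · right
        rw [hM, mem_inter, mem_sdiff, mem_sdiff]
        refine ⟨⟨⟨?_, (mem_sdiff.1 h3).2⟩, hzD⟩, h4⟩
        rcases mem_union.1 hv with h | h
        · exact absurd (mem_biUnion.2 ⟨v, h, hzv⟩) hzD
        · exact mem_biUnion.2 ⟨v, h, hzv⟩
    · rw [disjoint_left]
      intro z hz hz2
      rw [hM, mem_inter, mem_sdiff] at hz2
      exact hz2.1.2 (mem_inter.1 (mem_inter.1 hz).1).1
  have hc3 : Da.card = (Da \ E).card + E.card := by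
    rw [card_sdiff_of_subset hEDa]
    have := card_le_card hEDa
    omega
  have hc4 : ((Da \ E).biUnion N ∩ Xc N U W a ∩ K).card + M.card ≤
      (Da.biUnion N ∩ Xc N U W a ∩ K).card := by
    rw [← card_union_of_disjoint]
    · apply card_le_card
      intro z hz
      rw [mem_union] at hz
      rcases hz with hz | hz
      · rw [mem_inter, mem_inter, mem_biUnion] at hz
        obtain ⟨⟨⟨v, hv, hzv⟩, h3⟩, h4⟩ := hz
        exact mem_inter.2 ⟨mem_inter.2 ⟨mem_biUnion.2 ⟨v, (mem_sdiff.1 hv).1, hzv⟩, h3⟩, h4⟩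
      · rw [hM, mem_inter, mem_sdiff] at hz
        obtain ⟨⟨h3, h4⟩, h5⟩ := hz
        refine mem_inter.2 ⟨mem_inter.2 ⟨?_, ?_⟩, h5⟩
        · rw [mem_sdiff, mem_biUnion] at h3
          obtain ⟨⟨v, hv, hzv⟩, -⟩ := h3
          exact mem_biUnion.2 ⟨v, hEDa hv, hzv⟩
        · exact biUnion_sdiff_subset_Xc (fun v hv => hDa (hEDa hv)) hy h3
    · rw [disjoint_left]
      intro z hz hz2
      rw [mem_inter, mem_inter, mem_biUnion] at hz
      obtain ⟨⟨⟨v, hv, hzv⟩, -⟩, -⟩ := hz
      rw [hM, mem_inter, mem_sdiff, mem_sdiff] at hz2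
      rcases mem_union.1 (hsub hv) with h | h
      · exact hz2.1.1.2 (mem_biUnion.2 ⟨v, h, hzv⟩)
      · exact hz2.1.2 (mem_biUnion.2 ⟨v, h, hzv⟩)
  unfold val at h1 ⊢
  rw [hc1] at h1
  rw [hc3]
  push_cast at h1 ⊢
  have hc2' : (((Dy ∪ E).biUnion N ∩ Bc N U W y ∩ K).card : ℤ) ≤
      (Dy.biUnion N ∩ Bc N U W y ∩ K).card + M.card := by exact_mod_cast hc2
  have hc4' : (((Da \ E).biUnion N ∩ Xc N U W a ∩ K).card : ℤ) + M.card ≤
      (Da.biUnion N ∩ Xc N U W a ∩ K).card := by exact_mod_cast hc4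
  linarith

open Classical in
/-- the free targets -/
noncomputable def fr (N : V → Finset V) (o : V → ℕ) (S T : Finset V) : Finset V :=
  T.filter (fun b => Free N S T (pre o (o b)) b)

theorem fr_add_nf (N : V → Finset V) (o : V → ℕ) (S T : Finset V) :
    (fr N o S T).card + (nf N o S T).card = T.card := by
  classical
  unfold fr nf
  exact card_filter_add_card_filter_not (s := T) (fun b => Free N S T (pre o (o b)) b)

theorem mem_Xc_swap {N U W : V → Finset V} {a b : V} :
    b ∈ Xc N U W a ↔ a ∈ Xc N W U b := by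
  simp only [Xc, mem_filter, mem_univ, true_and]
  tauto

/-- the square inequality -/
theorem sq {N U W : V → Finset V} (hC : ColHall N U W) (hR : ColHall N W U) :
    ∑ a, ((Sc N U W a).card : ℤ) + ∑ y, ((Bc N U W y).card : ℤ) ≤
      ∑ y, ((Gc U W y).card : ℤ) + ∑ a, ((Xc N U W a).card : ℤ) := by
  classical
  obtain ⟨o, ho⟩ : ∃ o : V → ℕ, Function.Injective o :=
    ⟨fun v => (Fintype.equivFin V v).val, fun x y h =>
      (Fintype.equivFin V).injective (Fin.ext h)⟩
  -- free sets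
  have hA : ∀ a, ((fr N o (Sc N U W a) (Xc N U W a)).card : ℤ) + (Sc N U W a).card ≤
      (Xc N U W a).card := by
    intro a
    have h1 := fr_add_nf N o (Sc N U W a) (Xc N U W a)
    have h2 := nf_card_ge N o ho (Sc N U W a) (Xc N U W a) (fun D hD => hallX hC a D hD)
    have h1' : ((fr N o (Sc N U W a) (Xc N U W a)).card : ℤ) +
      (nf N o (Sc N U W a) (Xc N U W a)).card = (Xc N U W a).card := by exact_mod_cast h1
    have h2' : ((Sc N U W a).card : ℤ) ≤ (nf N o (Sc N U W a) (Xc N U W a)).card := by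
      exact_mod_cast h2
    linarith
  have hB : ∀ y, ((Bc N U W y).card : ℤ) ≤
      (fr N o (Gc U W y) (Bc N U W y)).card + (Gc U W y).card := by
    intro y
    have h1 := fr_add_nf N o (Gc U W y) (Bc N U W y)
    have h2 := nf_card_le N o ho (Gc U W y) (Bc N U W y)
    have h1' : ((fr N o (Gc U W y) (Bc N U W y)).card : ℤ) +
      (nf N o (Gc U W y) (Bc N U W y)).card = (Bc N U W y).card := by exact_mod_cast h1
    have h2' : ((nf N o (Gc U W y) (Bc N U W y)).card : ℤ) ≤ (Gc U W y).card := by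
      exact_mod_cast h2
    linarith
  -- double counting
  have hkey : ∑ y, ((fr N o (Gc U W y) (Bc N U W y)).card : ℤ) ≤
      ∑ a, ((fr N o (Sc N U W a) (Xc N U W a)).card : ℤ) := by
    have hdc : ∀ F : V → Finset V, ∑ y, ((F y).card : ℤ) =
        ∑ b, ((univ.filter (fun y => b ∈ F y)).card : ℤ) := by
      intro F
      have h1 : ∀ y, ((F y).card : ℤ) = ∑ b, if b ∈ F y then (1 : ℤ) else 0 := by
        intro y
        rw [Finset.sum_ite_mem, univ_inter]
        simp
      have h2 : ∀ b, ((univ.filter (fun y => b ∈ F y)).card : ℤ) =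
          ∑ y, if b ∈ F y then (1 : ℤ) else 0 := by
        intro b
        rw [← Finset.sum_filter]
        simp
      simp_rw [h1, h2]
      exact Finset.sum_comm
    rw [hdc, hdc (fun a => fr N o (Sc N U W a) (Xc N U W a))]
    apply Finset.sum_le_sum
    intro b _
    set Y := univ.filter (fun y => b ∈ fr N o (Gc U W y) (Bc N U W y)) with hY
    have hYS : Y ⊆ Sc N W U b := by
      intro y hy
      rw [hY, mem_filter, fr, mem_filter] at hy
      rw [Sc, mem_filter]
      exact ⟨mem_univ _, hy.2.1⟩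
    have h1 := hallX hR b Y hYS
    have h2 : (Y.biUnion N) ∩ Xc N W U b ⊆
        univ.filter (fun a => b ∈ fr N o (Sc N U W a) (Xc N U W a)) := by
      intro a ha
      rw [mem_inter, mem_biUnion] at ha
      obtain ⟨⟨y, hy, hay⟩, hX⟩ := ha
      rw [mem_filter]
      refine ⟨mem_univ _, ?_⟩
      rw [hY, mem_filter, fr, mem_filter] at hy
      rw [fr, mem_filter]
      exact ⟨mem_Xc_swap.2 hX, free_mono _ hay hy.2.1 hy.2.2⟩
    have h3 := h1.trans (card_le_card h2)
    exact_mod_cast h3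
  have hA' := Finset.sum_le_sum (fun a (_ : a ∈ (univ : Finset V)) => hA a)
  have hB' := Finset.sum_le_sum (fun y (_ : y ∈ (univ : Finset V)) => hB y)
  rw [Finset.sum_add_distrib] at hA' hB'
  linarith

end Vale.Agent.P038.H929
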