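import Mathlib

/-!
# Free targets of a bipartite source/target system, along a fixed order of the targets
-/

namespace Vale.Agent.P038.H929

open Finset

variable {V : Type*} [Fintype V] [DecidableEq V]

/-- the deficiency of the source set `D` against the targets `T ∩ K` -/
def val (N : V → Finset V) (T K D : Finset V) : ℤ :=
  (D.card : ℤ) - (((D.biUnion N) ∩ T ∩ K).card : ℤ)

theorem exists_mx (N : V → Finset V) (S T K : Finset V) :
    ∃ D, D ⊆ S ∧ ∀ D', D' ⊆ S → val N T K D' ≤ val N T K D := by
  obtain ⟨D, hD, h⟩ := Finset.exists_max_image S.powerset (val N T K) ⟨∅, by simp⟩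
  exact ⟨D, Finset.mem_powerset.1 hD, fun D' hD' => h D' (Finset.mem_powerset.2 hD')⟩

/-- the maximal deficiency -/
noncomputable def mx (N : V → Finset V) (S T K : Finset V) : ℤ :=
  val N T K (exists_mx N S T K).choose

theorem mx_spec (N : V → Finset V) (S T K : Finset V) :
    ∃ D, D ⊆ S ∧ val N T K D = mx N S T K :=
  ⟨_, (exists_mx N S T K).choose_spec.1, rfl⟩

theorem le_mx (N : V → Finset V) (S T K : Finset V) {D : Finset V} (h : D ⊆ S) :
    val N T K D ≤ mx N S T K :=
  (exists_mx N S T K).choose_spec.2 D h

/-- some maximiser misses `b` -/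
def Free (N : V → Finset V) (S T K : Finset V) (b : V) : Prop :=
  ∃ D, D ⊆ S ∧ val N T K D = mx N S T K ∧ b ∉ D.biUnion N

theorem val_insert_of_mem (N : V → Finset V) (T K D : Finset V) {b : V} (hK : b ∉ K)
    (hT : b ∈ T) (hD : b ∈ D.biUnion N) :
    val N T (insert b K) D = val N T K D - 1 := by
  unfold val
  have h1 : (D.biUnion N) ∩ T ∩ (insert b K) = insert b ((D.biUnion N) ∩ T ∩ K) := by
    ext x
    simp only [mem_inter, mem_insert]
    constructor
    · rintro ⟨h1, h2 | h2⟩
      · exact Or.inl h2
      · exact Or.inr ⟨h1, h2⟩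
    · rintro (rfl | h)
      · exact ⟨⟨hD, hT⟩, Or.inl rfl⟩
      · exact ⟨h.1, Or.inr h.2⟩
  rw [h1, card_insert_of_notMem (fun h => hK (mem_inter.1 h).2)]
  push_cast
  ring

theorem val_insert_of_not (N : V → Finset V) (T K D : Finset V) {b : V}
    (h : b ∉ T ∨ b ∉ D.biUnion N) :
    val N T (insert b K) D = val N T K D := by
  unfold val
  have h1 : (D.biUnion N) ∩ T ∩ (insert b K) = (D.biUnion N) ∩ T ∩ K := by
    ext x
    simp only [mem_inter, mem_insert]
    constructor
    · rintro ⟨h1, h2 | h2⟩
      · subst h2
        rcases h with h | h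
        · exact absurd h1.2 h
        · exact absurd h1.1 h
      · exact ⟨h1, h2⟩
    · rintro ⟨h1, h2⟩
      exact ⟨h1, Or.inr h2⟩
  rw [h1]

theorem mx_insert_le (N : V → Finset V) (S T K : Finset V) {b : V} (hK : b ∉ K) :
    mx N S T (insert b K) ≤ mx N S T K := by
  obtain ⟨D, hD, h⟩ := mx_spec N S T (insert b K)
  rw [← h]
  have h2 := le_mx N S T K hD
  by_cases hb : b ∈ T ∧ b ∈ D.biUnion N
  · rw [val_insert_of_mem N T K D hK hb.1 hb.2]; linarith
  · rw [val_insert_of_not N T K D (by tauto)]; exact h2

theorem mx_insert_lt (N : V → Finset V) (S T K : Finset V) {b : V} (hK : b ∉ K)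
    (hT : b ∈ T) (hf : ¬ Free N S T K b) :
    mx N S T (insert b K) ≤ mx N S T K - 1 := by
  obtain ⟨D, hD, h⟩ := mx_spec N S T (insert b K)
  rw [← h]
  have h2 := le_mx N S T K hD
  by_cases hb : b ∈ D.biUnion N
  · rw [val_insert_of_mem N T K D hK hT hb]; linarith
  · rw [val_insert_of_not N T K D (Or.inr hb)]
    have h3 : val N T K D ≠ mx N S T K := fun h3 => hf ⟨D, hD, h3, hb⟩
    omega

theorem le_mx_insert (N : V → Finset V) (S T K : Finset V) {b : V} (hK : b ∉ K) :
    mx N S T K - 1 ≤ mx N S T (insert b K) := by
  obtain ⟨D, hD, h⟩ := mx_spec N S T K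
  rw [← h]
  have h2 := le_mx N S T (insert b K) hD
  by_cases hb : b ∈ T ∧ b ∈ D.biUnion N
  · rw [val_insert_of_mem N T K D hK hb.1 hb.2] at h2; exact h2
  · rw [val_insert_of_not N T K D (by tauto)] at h2; linarith

theorem le_mx_insert_of_free (N : V → Finset V) (S T K : Finset V) {b : V}
    (h : b ∉ T ∨ Free N S T K b) :
    mx N S T K ≤ mx N S T (insert b K) := by
  rcases h with h | ⟨D, hD, h, hb⟩
  · obtain ⟨D, hD, h2⟩ := mx_spec N S T K
    rw [← h2, ← val_insert_of_not N T K D (Or.inl h)]
    exact le_mx N S T (insert b K) hD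
  · rw [← h, ← val_insert_of_not N T K D (Or.inr hb)]
    exact le_mx N S T (insert b K) hD

/-- the vertices before step `k` -/
def pre (o : V → ℕ) (k : ℕ) : Finset V := univ.filter (fun v => o v < k)

open Classical in
/-- the targets which are not free -/
noncomputable def nf (N : V → Finset V) (o : V → ℕ) (S T : Finset V) : Finset V :=
  T.filter (fun b => ¬ Free N S T (pre o (o b)) b)

theorem pre_succ_of_eq (o : V → ℕ) (ho : Function.Injective o) (b : V) :
    pre o (o b + 1) = insert b (pre o (o b)) := by
  ext x
  simp only [pre, mem_filter, mem_univ, true_and, mem_insert]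
  constructor
  · intro h
    rcases Nat.lt_succ_iff_lt_or_eq.1 h with h | h
    · exact Or.inr h
    · exact Or.inl (ho h)
  · rintro (rfl | h)
    · exact Nat.lt_succ_self _
    · exact Nat.lt_succ_of_lt h

theorem pre_succ_of_ne (o : V → ℕ) (k : ℕ) (h : ∀ b, o b ≠ k) : pre o (k + 1) = pre o k := by
  ext x
  simp only [pre, mem_filter, mem_univ, true_and]
  have := h x
  omega

theorem notMem_pre (o : V → ℕ) (b : V) : b ∉ pre o (o b) := by
  simp [pre]

theorem mx_pre_zero (N : V → Finset V) (o : V → ℕ) (S T : Finset V) :
    mx N S T (pre o 0) = S.card := by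
  have h0 : pre o 0 = ∅ := by simp [pre]
  rw [h0]
  apply le_antisymm
  · obtain ⟨D, hD, h⟩ := mx_spec N S T ∅
    rw [← h]
    have := card_le_card hD
    simp only [val, inter_empty, card_empty]
    push_cast
    have h3 : (D.card : ℤ) ≤ S.card := by exact_mod_cast this
    linarith
  · have := le_mx N S T ∅ (subset_refl S)
    simpa [val] using this

open Classical in
theorem nf_aux (N : V → Finset V) (o : V → ℕ) (ho : Function.Injective o) (S T : Finset V)
    (k : ℕ) :
    mx N S T (pre o k) + ((nf N o S T).filter (fun b => o b < k)).card = S.card := by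
  induction k with
  | zero =>
    rw [mx_pre_zero]
    simp
  | succ k ih =>
    by_cases hk : ∃ b, o b = k
    · obtain ⟨b, rfl⟩ := hk
      rw [pre_succ_of_eq o ho b]
      by_cases hb : b ∈ nf N o S T
      · have h1 : (nf N o S T).filter (fun x => o x < o b + 1) =
            insert b ((nf N o S T).filter (fun x => o x < o b)) := by
          ext x
          simp only [mem_filter, mem_insert]
          constructor
          · rintro ⟨h1, h2⟩
            rcases Nat.lt_succ_iff_lt_or_eq.1 h2 with h | h
            · exact Or.inr ⟨h1, h⟩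
            · exact Or.inl (ho h)
          · rintro (rfl | h)
            · exact ⟨hb, Nat.lt_succ_self _⟩
            · exact ⟨h.1, Nat.lt_succ_of_lt h.2⟩
        rw [h1, card_insert_of_notMem (by simp)]
        rw [nf, mem_filter] at hb
        have h2 := mx_insert_lt N S T (pre o (o b)) (notMem_pre o b) hb.1 hb.2
        have h3 := le_mx_insert N S T (pre o (o b)) (notMem_pre o b)
        push_cast
        linarith
      · have h1 : (nf N o S T).filter (fun x => o x < o b + 1) =
            (nf N o S T).filter (fun x => o x < o b) := by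
          ext x
          simp only [mem_filter]
          constructor
          · rintro ⟨h1, h2⟩
            rcases Nat.lt_succ_iff_lt_or_eq.1 h2 with h | h
            · exact ⟨h1, h⟩
            · exact absurd (ho h ▸ h1) hb
          · rintro ⟨h1, h2⟩
            exact ⟨h1, Nat.lt_succ_of_lt h2⟩
        rw [h1]
        have h4 : b ∉ T ∨ Free N S T (pre o (o b)) b := by
          by_contra h5
          push Not at h5
          exact hb (mem_filter.2 h5)
        have h2 := mx_insert_le N S T (pre o (o b)) (notMem_pre o b)
        have h3 := le_mx_insert_of_free N S T (pre o (o b)) h4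
        linarith
    · push Not at hk
      have h1 : (nf N o S T).filter (fun x => o x < k + 1) =
          (nf N o S T).filter (fun x => o x < k) := by
        ext x
        simp only [mem_filter]
        have := hk x
        constructor
        · rintro ⟨h1, h2⟩
          exact ⟨h1, by omega⟩
        · rintro ⟨h1, h2⟩
          exact ⟨h1, by omega⟩
      rw [h1, pre_succ_of_ne o k hk]
      exact ih

theorem nf_total (N : V → Finset V) (o : V → ℕ) (ho : Function.Injective o) (S T : Finset V) :
    mx N S T univ + (nf N o S T).card = S.card := by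
  classical
  obtain ⟨k, hk⟩ : ∃ k, ∀ v, o v < k := by
    refine ⟨univ.sup o + 1, fun v => Nat.lt_succ_of_le (Finset.le_sup (mem_univ v))⟩
  have h := nf_aux N o ho S T k
  have h1 : pre o k = univ := by
    ext x
    simp [pre, hk x]
  have h2 : (nf N o S T).filter (fun b => o b < k) = nf N o S T := by
    apply filter_true_of_mem
    intro x _
    exact hk x
  rw [h1, h2] at h
  exact h

theorem nf_card_le (N : V → Finset V) (o : V → ℕ) (ho : Function.Injective o)
    (S T : Finset V) : (nf N o S T).card ≤ S.card := by
  have h := nf_total N o ho S T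
  have h2 := le_mx N S T univ (empty_subset S)
  have h3 : val N T univ ∅ = 0 := by simp [val]
  have : ((nf N o S T).card : ℤ) ≤ S.card := by linarith
  exact_mod_cast this

theorem nf_card_ge (N : V → Finset V) (o : V → ℕ) (ho : Function.Injective o)
    (S T : Finset V) (hH : ∀ D, D ⊆ S → D.card ≤ ((D.biUnion N) ∩ T).card) :
    S.card ≤ (nf N o S T).card := by
  have h := nf_total N o ho S T
  obtain ⟨D, hD, h2⟩ := mx_spec N S T univ
  have h3 : val N T univ D ≤ 0 := by
    have := hH D hD
    simp only [val, inter_univ]
    have h4 : (D.card : ℤ) ≤ ((D.biUnion N) ∩ T).card := by exact_mod_cast this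
    linarith
  have : (S.card : ℤ) ≤ (nf N o S T).card := by linarith
  exact_mod_cast this

end Vale.Agent.P038.H929
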